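import Vale.Agent.P251.F.F3Sparse
import Vale.Agent.P251.F.LawHom

/-! # P261, stage 2, leaf K2: the homotopy operator of the automorphism `[1+p]`

For a law ring `N` in which `p` is nilpotent, `g = 1+p` and `σ(F) = (lin g)⁻¹ * [g]_F` the chains
`(F_0 → … → F_n)` and `(lin g)⁻¹ (F_0 → … → F_n)` are homotopic, naturally.  On the functions of
weight `w` the second one is multiplication by `g ^ w`. -/

noncomputable section

namespace Vale.Agent.P261.H19

open Vale.Agent.P251 Vale.Agent.P251.F Vale.Agent.P251.F.F3 LawRing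
open MvPowerSeries Vale.Agent.P217

/-! ### the series `[1+p]` -/

section series

variable {p : ℕ} [hpp : Fact p.Prime] {R : Type*} [CommRing R] {S : Type*} [CommRing S]
variable [PNil p R] [PNil p S]

variable (p R) in
omit hpp in
theorem isUnit_one_add : IsUnit (1 + (p : R)) :=
  IsNilpotent.isUnit_one_add (PNil.isNilpotent (p := p) (R := R))

variable (p R) in
/-- the image of `1 + p` in `R`, as a unit -/
def gU : Rˣ := (isUnit_one_add p R).unit

omit hpp in
@[simp] theorem val_gU : (gU p R : R) = 1 + (p : R) := rfl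

theorem rho_g : rho p R (1 + (p : ℤ_[p])) = 1 + (p : R) := by
  rw [map_add, map_one, map_natCast]

omit hpp in
theorem map_gU (φ : R →+* S) : Units.map (φ : R →* S) (gU p R) = gU p S := by
  ext
  rw [Units.coe_map, val_gU, val_gU]
  change φ (1 + (p : R)) = _
  rw [map_add, map_one, map_natCast]

variable (p) in
/-- `[1+p]_F` as an invertible series -/
def gS (F : Law R) : InvSeries R where
  val := pser F.toFG (1 + (p : ℤ_[p]))
  cc := constantCoeff_pser _ _
  isUnit := by
    rw [coeff_one_pser, rho_g]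
    exact isUnit_one_add p R

@[simp] theorem gS_val (F : Law R) : (gS p F).val = pser F.toFG (1 + (p : ℤ_[p])) := rfl

theorem gS_smul (F : Law R) : gS p F • F = F := by
  rw [InvSeries.smul_eq_iff_isHom]
  refine ⟨(gS p F).cc, ?_⟩
  have h := subst_pser_add (F := F.toFG) (1 + (p : ℤ_[p]))
    (Pt.mk F.toFG (X 0 : MvPowerSeries (Fin 2) R) (by simp)) (Pt.mk F.toFG (X 1) (by simp))
  rw [Pt.val_mk, Pt.val_mk] at h
  have h2 : (![X 0, X 1] : Fin 2 → MvPowerSeries (Fin 2) R) = X := by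
    funext i
    fin_cases i <;> rfl
  rw [h2, subst_self, id] at h
  exact h

/-- `[1+p]` commutes with isomorphisms -/
theorem gS_conj (f : InvSeries R) (F : Law R) : gS p (f • F) * f = f * gS p F := by
  ext1
  have h := subst_pser_hom (F := F.toFG) (G := (f • F).toFG) (1 + (p : ℤ_[p])) f.val f.cc
    (fun a b => IsHom_subst_add (InvSeries.isHom_smul f F) a.const b.const)
  rw [InvSeries.mul_val, InvSeries.mul_val]
  exact h.symm

theorem map_gS (φ : R →+* S) (F : Law R) : InvSeries.map φ (gS p F) = gS p (F.map φ) := by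
  ext1
  exact map_pser φ (1 + (p : ℤ_[p]))

theorem c_zero_gS (F : Law R) : (gS p F).c 0 = 1 + (p : R) := by
  change PowerSeries.coeff (0 + 1) (pser F.toFG (1 + (p : ℤ_[p]))) = _
  rw [zero_add, coeff_one_pser, rho_g]

variable (p) in
/-- the natural strict series `(lin g)⁻¹ * [g]_F`, `g = 1+p` -/
def sS (F : Law R) : InvSeries R := (InvSeries.lin (gU p R))⁻¹ * gS p F

theorem sS_mem (F : Law R) : sS p F ∈ strict R := by
  rw [mem_strict, sS, InvSeries.c_zero_mul, ← map_inv, InvSeries.c_zero_lin, c_zero_gS,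
    ← val_gU, Units.inv_mul]

theorem map_sS (φ : R →+* S) (F : Law R) : InvSeries.map φ (sS p F) = sS p (F.map φ) := by
  rw [sS, map_mul, map_inv, map_gS, InvSeries.map_lin, map_gU, sS]

/-- compatibility of `sS` with scaling -/
theorem sS_lin (l : Rˣ) (F : Law R) :
    sS p (InvSeries.lin l • F) = InvSeries.lin l * sS p F * (InvSeries.lin l)⁻¹ := by
  have h := gS_conj (p := p) (InvSeries.lin l) F
  have h2 : gS p (InvSeries.lin l • F) = InvSeries.lin l * gS p F * (InvSeries.lin l)⁻¹ := by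
    rw [← h, mul_inv_cancel_right]
  have h3 : (InvSeries.lin (gU p R))⁻¹ * InvSeries.lin l =
      InvSeries.lin l * (InvSeries.lin (gU p R))⁻¹ := by
    rw [← map_inv, ← map_mul, ← map_mul, mul_comm]
  rw [sS, sS, h2, ← mul_assoc, ← mul_assoc, h3, mul_assoc (InvSeries.lin l)]

end series

/-! ### the operator -/

variable {N : Type} [CommRing N] {A B C : Type} [CommRing A] [CommRing B] [CommRing C]

section

variable [LawRing N]

variable {p : ℕ} [hpp : Fact p.Prime]

section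

variable [PNil p A] [PNil p B] [PNil p C]

variable (p) in
/-- `U k = sS (G k • x) * G k` -/
def uSeq (x : N →+* B) (G : ℕ → strict B) : ℕ → strict B := fun k =>
  ⟨sS p ((G k : InvSeries B) • law.map x) * G k, mul_mem (sS_mem _) (G k).2⟩

theorem val_uSeq (x : N →+* B) (G : ℕ → strict B) (k : ℕ) :
    (uSeq p x G k : InvSeries B) = sS p ((G k : InvSeries B) • law.map x) * G k := rfl

theorem val_uSeq' (x : N →+* B) (G : ℕ → strict B) (k : ℕ) :
    (uSeq p x G k : InvSeries B) =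
      (InvSeries.lin (gU p B))⁻¹ * (G k * gS p (law.map x)) := by
  rw [val_uSeq, sS, mul_assoc, gS_conj]

theorem uSeq_del (x : N →+* B) (G : ℕ → strict B) (j : ℕ) :
    uSeq p x (del j G) = del j (uSeq p x G) := by
  funext k
  simp only [del, uSeq]
  split_ifs <;> rfl

theorem smap_uSeq (φ : B →+* C) (x : N →+* B) (G : ℕ → strict B) (k : ℕ) :
    smap φ (uSeq p x G k) = uSeq p (φ.comp x) (fun k => smap φ (G k)) k := by
  apply Subtype.ext
  rw [val_smap, val_uSeq, val_uSeq, map_mul, map_sS, InvSeries.map_smul, Law.map_map]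
  rfl

theorem uSeq_translate (x : N →+* B) (G G' : ℕ → strict B) (g : InvSeries B) (k : ℕ)
    (h : (G' k : InvSeries B) = G k * g⁻¹) :
    (uSeq p (act g x) G' k : InvSeries B) = uSeq p x G k * g⁻¹ := by
  rw [val_uSeq, val_uSeq, h, law_act, smul_smul, inv_mul_cancel_right, mul_assoc]

theorem uSeq_conj (x : N →+* B) (G : ℕ → strict B) (u : Bˣ) :
    uSeq p (act (InvSeries.lin u)⁻¹ x) (conjSeq u G) = conjSeq u (uSeq p x G) := by
  funext k
  apply Subtype.ext
  have h1 : ((conjSeq u G k : strict B) : InvSeries B) • law.map (act (InvSeries.lin u)⁻¹ x) =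
      InvSeries.lin u⁻¹ • ((G k : InvSeries B) • law.map x) := by
    rw [law_act, smul_smul, smul_smul, map_inv]
    congr 1
    change (InvSeries.lin u)⁻¹ * G k * InvSeries.lin u * (InvSeries.lin u)⁻¹ = _
    group
  rw [val_uSeq, h1, sS_lin, map_inv, inv_inv]
  change (InvSeries.lin u)⁻¹ * sS p ((G k : InvSeries B) • law.map x) * InvSeries.lin u *
    ((InvSeries.lin u)⁻¹ * G k * InvSeries.lin u) =
    (InvSeries.lin u)⁻¹ * (sS p ((G k : InvSeries B) • law.map x) * G k) * InvSeries.lin u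
  group

end

variable [PNil p N]

/-- the `i`-th prism over a chain -/
def prism (p : ℕ) [Fact p.Prime] [PNil p B] {n : ℕ} (i : ℕ) (c : Chain N n B) :
    Chain N (n + 1) B :=
  ofSeq (n + 1) c.pt (prs i (seq c) (uSeq p c.pt (seq c)))

/-- the moved chain -/
def typC (p : ℕ) [Fact p.Prime] [PNil p B] {n : ℕ} (c : Chain N n B) : Chain N n B :=
  ofSeq n c.pt (uSeq p c.pt (seq c))

omit [PNil p N] in
theorem prism_map [PNil p B] [PNil p C] {n : ℕ} (i : ℕ) (φ : B →+* C) (c : Chain N n B) :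
    (prism p i c).map φ = prism p i (c.map φ) := by
  rw [prism, ofSeq_map, prism, smap_prs, seq_map]
  congr 2
  funext k
  exact smap_uSeq φ c.pt (seq c) k

omit [PNil p N] in
theorem typC_map [PNil p B] [PNil p C] {n : ℕ} (φ : B →+* C) (c : Chain N n B) :
    (typC p c).map φ = typC p (c.map φ) := by
  rw [typC, ofSeq_map, typC, seq_map]
  congr 1
  funext k
  exact smap_uSeq φ c.pt (seq c) k

/-- the ring endomorphism of `Cob N n` given by the moved chains -/
def rOp (p : ℕ) [Fact p.Prime] [PNil p N] (n : ℕ) : Cob N n →+* Cob N n :=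
  Cob.ev (typC p (Cob.univ N n))

variable (N) in
/-- the homotopy operator -/
def hOp (p : ℕ) [Fact p.Prime] [PNil p N] (n : ℕ) : Cob N (n + 1) →+ Cob N n :=
  ∑ i ∈ Finset.range (n + 1), ((-1 : ℤ) ^ i) •
    (Cob.ev (prism p i (Cob.univ N n)) : Cob N (n + 1) →+* Cob N n).toAddMonoidHom

theorem ev_rOp [PNil p B] {n : ℕ} (c : Chain N n B) (z : Cob N n) :
    Cob.ev c (rOp p n z) = Cob.ev (typC p c) z := by
  rw [rOp, ← Cob.ev_map, typC_map, Cob.univ_map_ev]

theorem ev_hOp [PNil p B] {n : ℕ} (c : Chain N n B) (z : Cob N (n + 1)) :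
    Cob.ev c (hOp N p n z) =
      ∑ i ∈ Finset.range (n + 1), ((-1 : ℤ) ^ i) • Cob.ev (prism p i c) z := by
  rw [hOp, AddMonoidHom.finsetSum_apply, map_sum]
  refine Finset.sum_congr rfl fun i _ => ?_
  rw [AddMonoidHom.smul_apply, map_zsmul]
  congr 1
  change Cob.ev c (Cob.ev (prism p i (Cob.univ N n)) z) = _
  rw [← Cob.ev_map, prism_map, Cob.univ_map_ev]

omit [PNil p N] in
theorem prism_ofSeq [PNil p B] {n : ℕ} {i : ℕ} (hi : i ≤ n) (x : N →+* B) (G : ℕ → strict B) :
    prism p i (ofSeq n x G) = ofSeq (n + 1) x (prs i G (uSeq p x G)) := by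
  rw [prism, ofSeq_pt]
  have hV : ∀ k ≤ n, (seq (ofSeq n x G) k : InvSeries B) = G k * (G 0 : InvSeries B)⁻¹ := by
    intro k hk
    change (ofSeq n x G).g ⟨min k n, _⟩ = _
    rw [ofSeq_g]
    congr 3
    simp
    omega
  have hU : ∀ k ≤ n, (uSeq p (act (G 0 : InvSeries B) x) (seq (ofSeq n x G)) k : InvSeries B) =
      uSeq p x G k * (G 0 : InvSeries B)⁻¹ := fun k hk => uSeq_translate _ _ _ _ _ (hV k hk)
  refine ofSeq_translate x _ _ _ fun k hk => ?_
  simp only [prs]
  split_ifs with h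
  · exact hV k (by omega)
  · exact hU (k - 1) (by omega)

theorem ev_hOp_ofSeq [PNil p B] {n : ℕ} (x : N →+* B) (G : ℕ → strict B) (z : Cob N (n + 1)) :
    Cob.ev (ofSeq n x G) (hOp N p n z) =
      ∑ i ∈ Finset.range (n + 1), ((-1 : ℤ) ^ i) • evSeq x z (prs i G (uSeq p x G)) := by
  rw [ev_hOp]
  refine Finset.sum_congr rfl fun i hi => ?_
  rw [Finset.mem_range] at hi
  rw [prism_ofSeq (by omega), evSeq]

/-- the homotopy identity in positive degrees -/
theorem hOp_d_add_d_hOp {n : ℕ} (z : Cob N (n + 1)) :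
    hOp N p (n + 1) (Cob.d (n + 1) z) + Cob.d n (hOp N p n z) = rOp p (n + 1) z - z := by
  apply Cob.ext_ev
  intro B _ c
  have : PNil p B := pnil_map c.pt inferInstance
  rw [map_add, map_sub, ev_rOp]
  set x := c.pt with hx
  set V := seq c with hV
  set U := uSeq p x V with hU
  have hc : c = ofSeq (n + 1) x V := (ofSeq_seq c).symm
  have h1 : Cob.ev c (hOp N p (n + 1) (Cob.d (n + 1) z)) =
      ∑ i ∈ Finset.range (n + 1 + 1), ∑ j ∈ Finset.range (n + 1 + 2),
        ((-1 : ℤ) ^ (i + j)) • evSeq x z (del j (prs i V U)) := by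
    rw [ev_hOp]
    refine Finset.sum_congr rfl fun i _ => ?_
    rw [prism, ev_d_ofSeq, Finset.smul_sum]
    refine Finset.sum_congr rfl fun j _ => ?_
    rw [smul_smul, ← pow_add]
  have h2 : Cob.ev c (Cob.d n (hOp N p n z)) =
      ∑ i ∈ Finset.range (n + 1), ∑ j ∈ Finset.range (n + 1 + 1),
        ((-1 : ℤ) ^ (i + j)) • evSeq x z (prs i (del j V) (del j U)) := by
    rw [Finset.sum_comm]
    rw [hc, ev_d_ofSeq]
    refine Finset.sum_congr rfl fun j _ => ?_
    rw [evSeq, ev_hOp_ofSeq, Finset.smul_sum]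
    refine Finset.sum_congr rfl fun i _ => ?_
    rw [smul_smul, ← pow_add, add_comm, uSeq_del]
  rw [h1, h2, prism_identity]
  congr 1
  rw [← ofSeq_seq c]
  refine evSeq_congr x z fun k hk => ?_
  simp only [mix]
  rw [if_pos (by omega)]

/-- the homotopy identity in degree `0` -/
theorem hOp_d_zero (z : Cob N 0) : hOp N p 0 (Cob.d 0 z) = rOp p 0 z - z := by
  apply Cob.ext_ev
  intro B _ c
  have : PNil p B := pnil_map c.pt inferInstance
  rw [map_sub, ev_rOp]
  set x := c.pt with hx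
  set V := seq c with hV
  set U := uSeq p x V with hU
  have h1 : Cob.ev c (hOp N p 0 (Cob.d 0 z)) =
      ∑ i ∈ Finset.range (0 + 1), ∑ j ∈ Finset.range (0 + 2),
        ((-1 : ℤ) ^ (i + j)) • evSeq x z (del j (prs i V U)) := by
    rw [ev_hOp]
    refine Finset.sum_congr rfl fun i _ => ?_
    rw [prism, ev_d_ofSeq, Finset.smul_sum]
    refine Finset.sum_congr rfl fun j _ => ?_
    rw [smul_smul, ← pow_add]
  have h3 := prism_identity V U (evSeq x z) 0
  rw [Finset.range_zero, Finset.sum_empty, add_zero] at h3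
  rw [h1, h3]
  congr 1
  rw [← ofSeq_seq c]
  refine evSeq_congr x z fun k hk => ?_
  simp only [mix]
  rw [if_pos (by omega)]

/-! ### weights -/

omit [PNil p N] in
theorem prism_scale [PNil p B] {n : ℕ} (i : ℕ) (c : Chain N n B) (u : Bˣ) :
    prism p i (c.scale u) = (prism p i c).scale u := by
  rw [prism, prism, ofSeq_scale, conjSeq_prs, seq_scale, ← uSeq_conj]
  rfl

theorem isWt_hOp {n : ℕ} {w : ℤ} {z : Cob N (n + 1)} (hz : Cob.IsWt w z) :
    Cob.IsWt w (hOp N p n z) := by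
  intro B _ c u
  have : PNil p B := pnil_map c.pt inferInstance
  rw [ev_hOp, ev_hOp, Finset.mul_sum]
  refine Finset.sum_congr rfl fun i _ => ?_
  rw [prism_scale, hz, mul_smul_comm]

/-! ### naturality -/

theorem ofSeq_pre {M : Type} [CommRing M] [LawRing M] {φ : N →+* M} (hφ : IsLawHom φ) {n : ℕ}
    (x : M →+* B) (G : ℕ → strict B) : (ofSeq n x G).pre φ = ofSeq n (x.comp φ) G := by
  ext1
  · exact hφ.act _ _ _
  · rfl

omit [PNil p N] in
theorem uSeq_pre [PNil p B] {M : Type} [CommRing M] [LawRing M] {φ : N →+* M} (hφ : IsLawHom φ)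
    (x : M →+* B) (G : ℕ → strict B) : uSeq p (x.comp φ) G = uSeq p x G := by
  funext k
  apply Subtype.ext
  rw [val_uSeq, val_uSeq, ← Law.map_map, hφ.law]

omit [PNil p N] in
theorem prism_pre [PNil p B] {M : Type} [CommRing M] [LawRing M] {φ : N →+* M} (hφ : IsLawHom φ)
    {n : ℕ} (i : ℕ) (c : Chain M n B) : (prism p i c).pre φ = prism p i (c.pre φ) := by
  rw [prism, ofSeq_pre hφ, ← uSeq_pre hφ]
  rfl

theorem mapRing_hOp {M : Type} [CommRing M] [LawRing M] [PNil p M] {φ : N →+* M}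
    (hφ : IsLawHom φ) (n : ℕ) (z : Cob N (n + 1)) :
    Cob.mapRing φ n (hOp N p n z) = hOp M p n (Cob.mapRing φ (n + 1) z) := by
  apply Cob.ext_ev
  intro B _ c
  have : PNil p B := pnil_map c.pt inferInstance
  rw [Cob.ev_mapRing, ev_hOp, ev_hOp]
  refine Finset.sum_congr rfl fun i _ => ?_
  rw [Cob.ev_mapRing, prism_pre hφ]

/-! ### the moved chain is the scaled chain -/

omit [PNil p N] in
theorem typC_eq_scale [PNil p B] (hN : LawRing.Epi N) {n : ℕ} (c : Chain N n B) :
    typC p c = c.scale (gU p B) := by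
  have h0 : (seq c 0 : InvSeries B) = 1 := by
    change c.g ⟨min 0 n, _⟩ = 1
    rw [← c.zero]
    exact congrArg c.g (Fin.ext (by simp))
  have hx : act (gS p (law.map c.pt)) c.pt = c.pt := by
    apply hN
    rw [law_act, gS_smul]
  ext1
  · rw [typC, ofSeq_pt, val_uSeq', h0, one_mul, act_mul, hx]
    rfl
  · funext i
    have hi : (seq c i : InvSeries B) = c.g i := by
      change c.g ⟨min i n, _⟩ = c.g i
      exact congrArg c.g (Fin.ext (by simp; omega))
    rw [typC, ofSeq_g, val_uSeq', val_uSeq', h0, one_mul, hi]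
    change _ = (InvSeries.lin (gU p B))⁻¹ * c.g i * InvSeries.lin (gU p B)
    group

omit hpp in
theorem gU_zpow_natAbs (B : Type) [CommRing B] [PNil p B] (n : ℕ) :
    (((gU p B) ^ n : Bˣ) : B) = (((1 + p) ^ n : ℕ) : B) := by
  rw [Units.val_pow_eq_pow_val, val_gU]
  push_cast
  rfl

theorem ev_rOp_of_isWt [PNil p B] (hN : LawRing.Epi N) {n : ℕ} {w : ℤ} {z : Cob N n}
    (hz : Cob.IsWt w z) (c : Chain N n B) :
    Cob.ev c (rOp p n z) = (((gU p B) ^ w : Bˣ) : B) * Cob.ev c z := by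
  rw [ev_rOp, typC_eq_scale hN, hz]

/-- for `0 ≤ w` -/
theorem rOp_of_nonneg (hN : LawRing.Epi N) {n : ℕ} {w : ℤ} (hw : 0 ≤ w) {z : Cob N n}
    (hz : Cob.IsWt w z) : rOp p n z = (((1 + p) ^ w.natAbs : ℕ) : ℤ) • z := by
  apply Cob.ext_ev
  intro B _ c
  have : PNil p B := pnil_map c.pt inferInstance
  rw [ev_rOp_of_isWt hN hz, map_zsmul, zsmul_eq_mul, Int.cast_natCast, ← gU_zpow_natAbs,
    ← zpow_natCast, Int.natAbs_of_nonneg hw]

/-- for `w ≤ 0` -/
theorem rOp_of_nonpos (hN : LawRing.Epi N) {n : ℕ} {w : ℤ} (hw : w ≤ 0) {z : Cob N n}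
    (hz : Cob.IsWt w z) : (((1 + p) ^ w.natAbs : ℕ) : ℤ) • rOp p n z = z := by
  apply Cob.ext_ev
  intro B _ c
  have : PNil p B := pnil_map c.pt inferInstance
  rw [map_zsmul, zsmul_eq_mul, Int.cast_natCast, ev_rOp_of_isWt hN hz, ← gU_zpow_natAbs,
    ← zpow_natCast, Int.ofNat_natAbs_of_nonpos hw, ← mul_assoc, ← Units.val_mul, ← zpow_add,
    neg_add_cancel, zpow_zero, Units.val_one, one_mul]

variable (N) in
/-- the operator of weight `w` -/
def opW (p : ℕ) [Fact p.Prime] [PNil p N] (w : ℤ) (n : ℕ) : Cob N (n + 1) →+ Cob N n :=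
  (if 0 ≤ w then (1 : ℤ) else -(((1 + p) ^ w.natAbs : ℕ) : ℤ)) • hOp N p n

theorem opW_apply (w : ℤ) (n : ℕ) (z : Cob N (n + 1)) : opW N p w n z =
    (if 0 ≤ w then (1 : ℤ) else -(((1 + p) ^ w.natAbs : ℕ) : ℤ)) • hOp N p n z := rfl

theorem smul_rOp_sub (hN : LawRing.Epi N) {n : ℕ} {w : ℤ} {z : Cob N n} (hz : Cob.IsWt w z) :
    (if 0 ≤ w then (1 : ℤ) else -(((1 + p) ^ w.natAbs : ℕ) : ℤ)) • (rOp p n z - z) =
      (((1 + p) ^ w.natAbs : ℕ) : ℤ) • z - z := by
  split_ifs with h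
  · rw [one_smul, rOp_of_nonneg hN h hz]
  · rw [neg_smul, smul_sub, rOp_of_nonpos hN (by omega) hz, neg_sub]

end

end Vale.Agent.P261.H19

namespace Vale.Agent.P261

open Vale.Agent.P251 Vale.Agent.P251.F LawRing

/-- **(K2)**: the homotopy operator of the automorphism `[1+p]` of a formal group law -/
theorem exists_op (p : ℕ) [Fact p.Prime] (w : ℤ) :
    ∃ op : ∀ (N : Type) [CommRing N] [LawRing N] [F3.PNil p N] (n : ℕ),
        Cob N (n + 1) →+ Cob N n,
      (∀ (N : Type) [CommRing N] [LawRing N] [F3.PNil p N] (n : ℕ) (z : Cob N (n + 1)),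
        Cob.IsWt w z → Cob.IsWt w (op N n z)) ∧
      (∀ (N N' : Type) [CommRing N] [CommRing N'] [LawRing N] [LawRing N'] [F3.PNil p N]
        [F3.PNil p N'] (φ : N →+* N'), IsLawHom φ → ∀ (n : ℕ) (z : Cob N (n + 1)),
          Cob.mapRing φ n (op N n z) = op N' n (Cob.mapRing φ (n + 1) z)) ∧
      (∀ (N : Type) [CommRing N] [LawRing N] [F3.PNil p N], LawRing.Epi N →
        (∀ (n : ℕ) (z : Cob N (n + 1)), Cob.IsWt w z →
          op N (n + 1) (Cob.d (n + 1) z) + Cob.d n (op N n z) =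
            (((1 + p) ^ w.natAbs : ℕ) : ℤ) • z - z) ∧
        ∀ z : Cob N 0, Cob.IsWt w z →
          op N 0 (Cob.d 0 z) = (((1 + p) ^ w.natAbs : ℕ) : ℤ) • z - z) := by
  refine ⟨fun N _ _ _ n => H19.opW N p w n, ?_, ?_, ?_⟩
  · intro N _ _ _ n z hz
    rw [H19.opW_apply]
    exact (H19.isWt_hOp hz).zsmul _
  · intro N N' _ _ _ _ _ _ φ hφ n z
    rw [H19.opW_apply, H19.opW_apply, map_zsmul, H19.mapRing_hOp hφ]
  · intro N _ _ _ hN
    refine ⟨fun n z hz => ?_, fun z hz => ?_⟩
    · rw [H19.opW_apply, H19.opW_apply, map_zsmul, ← smul_add, H19.hOp_d_add_d_hOp,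
        H19.smul_rOp_sub hN hz]
    · rw [H19.opW_apply, H19.hOp_d_zero, H19.smul_rOp_sub hN hz]

end Vale.Agent.P261

end
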