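import Vale.Agent.P261.H19.K2
import Vale.Agent.P261.H468.K.Def

/-! # P261, stage 2, leaf K8: the operator `[1+p]` on the limit of the cobar complexes -/

namespace Vale.Agent.P261

open Vale.Agent.P251 Vale.Agent.P251.F Vale.Agent.P217 LawRing

theorem H19.pnil_NM (p k h j : ℕ) [Fact p.Prime] : F3.PNil p (NM p (p ^ k) h j) :=
  ⟨⟨k, by
    have h1 := m_eq_zero_NM p (p ^ k) h j
    rwa [Nat.cast_pow] at h1⟩⟩

/-- **(K8)**: `(1+p)^|w| - 1` kills the cohomology of the limit in positive degrees -/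
theorem towerM_lim_smul (p k h : ℕ) [Fact p.Prime] (hk : 1 ≤ k) (w : ℤ) (s : ℕ)
    (z : ∀ j, (towerM p (p ^ k) h w).C (s + 1) j) (hz : z ∈ (towerM p (p ^ k) h w).lim (s + 1))
    (hdz : ∀ j, (towerM p (p ^ k) h w).d (s + 1) j (z j) = 0) :
    ∃ y ∈ (towerM p (p ^ k) h w).lim s, ∀ j, (towerM p (p ^ k) h w).d s j (y j) =
      (((1 + p) ^ w.natAbs : ℕ) : ℤ) • z j - z j := by
  obtain ⟨op, h1, h2, h3⟩ := exists_op p w
  have hP : ∀ j, F3.PNil p (NM p (p ^ k) h j) := fun j => H19.pnil_NM p k h j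
  refine ⟨fun j => ⟨op (NM p (p ^ k) h (j + 1)) s (z j).1, h1 _ _ _ (z j).2⟩, ?_, fun j => ?_⟩
  · intro j
    apply Subtype.ext
    have e1 : Cob.mapRing (NM.red p (p ^ k) h (Nat.le_succ (j + 1))) (s + 1) (z (j + 1)).1 =
        (z j).1 := congrArg Subtype.val (hz j)
    change Cob.mapRing (NM.red p (p ^ k) h (Nat.le_succ (j + 1))) s
      (op (NM p (p ^ k) h (j + 2)) s (z (j + 1)).1) = op (NM p (p ^ k) h (j + 1)) s (z j).1
    rw [h2 _ _ _ (isLawHom_NM_red p (p ^ k) h _), e1]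
  · apply Subtype.ext
    have e1 : Cob.d (s + 1) (z j).1 = 0 := congrArg Subtype.val (hdz j)
    have e2 := (h3 (NM p (p ^ k) h (j + 1)) (epi_NM p (p ^ k) h (j + 1))).1 s (z j).1 (z j).2
    rw [e1, map_zero, zero_add] at e2
    exact e2

/-- **(K8)** in degree `0` -/
theorem towerM_zero_smul (p k h : ℕ) [Fact p.Prime] (hk : 1 ≤ k) (w : ℤ) (j : ℕ)
    (z : (towerM p (p ^ k) h w).C 0 j) (hz : (towerM p (p ^ k) h w).d 0 j z = 0) :
    (((1 + p) ^ w.natAbs : ℕ) : ℤ) • z - z = 0 := by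
  obtain ⟨op, h1, h2, h3⟩ := exists_op p w
  have hP : F3.PNil p (NM p (p ^ k) h (j + 1)) := H19.pnil_NM p k h (j + 1)
  apply Subtype.ext
  have e1 : Cob.d 0 z.1 = 0 := congrArg Subtype.val hz
  have e2 := (h3 (NM p (p ^ k) h (j + 1)) (epi_NM p (p ^ k) h (j + 1))).2 z.1 z.2
  rw [e1, map_zero] at e2
  exact e2.symm

end Vale.Agent.P261
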